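import Vale.Agent.P022.H280.L3.Stab
import Vale.Agent.P022.H218.L3.Base

/-!
Helper280 (P022, P022-L3, row [GEN6], file 5): the set `R = {p} ∪ {Fe u b / E₄}` in
`MF (G3 M)`: it generates (field `gen` of `Geo`), and `δ_ℓ` permutes it (`Drat`).
-/

open UpperHalfPlane hiding I
open ModularForm CongruenceSubgroup
open scoped Manifold MatrixGroups ModularForm Real IntermediateField

noncomputable section

namespace Vale.Agent.P022.H280.L3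

open Vale.Agent.P022.H218.L3 (Mer inc act MF IsMF Hol G3 isMF_E4)

theorem E4_ne : (⇑(E₄) : ℍ → ℂ) ≠ 0 := by
  intro h
  have h1 : (E₄ : ModularForm 𝒮ℒ 4) = 0 := by
    ext τ
    exact congrFun h τ
  exact EisensteinSeries.E_ne_zero (by norm_num) (by decide) h1

variable {M : ℕ}

/-- `Fe u b / E₄`. -/
def rM (u b : ZMod (3 * 2 ^ M)) : Mer :=
  inc (Fe u b) (Fe_mdiff u b) / inc (⇑(E₄) : ℍ → ℂ) isMF_E4.hol

theorem rM_mem {Γ : Subgroup SL(2, ℤ)} (hΓ : ∀ γ ∈ Γ, Vale.Agent.P022.L3.InG 3 M γ)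
    {u : ZMod (3 * 2 ^ M)} (hu : Idx M u) (b : ZMod (3 * 2 ^ M)) : rM u b ∈ MF Γ :=
  ⟨4, Fe u b, ⇑(E₄), isMF_Fe hΓ hu b, isMF_E4.mono le_top, E4_ne, rfl⟩

theorem inG_of_mem {γ : SL(2, ℤ)} (h : γ ∈ G3 M) : Vale.Agent.P022.L3.InG 3 M γ :=
  H218.L3.mem_G3.1 h

theorem E4_slash (γ : SL(2, ℤ)) : (⇑(E₄) : ℍ → ℂ) ∣[(4 : ℤ)] γ = ⇑(E₄) :=
  isMF_E4.slash γ (Subgroup.mem_top γ)

theorem act_rM (γ : SL(2, ℤ)) (u b : ZMod (3 * 2 ^ M)) :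
    act γ (rM u b) = inc (Fe u b ∣[(4 : ℤ)] γ⁻¹) (H218.L3.slash_mem (Fe_mdiff u b) 4 _) /
      inc (⇑(E₄) : ℍ → ℂ) isMF_E4.hol := by
  unfold rM
  rw [H218.L3.act_div γ 4 (Fe_mdiff u b) isMF_E4.hol E4_ne]
  congr 1
  have h := E4_slash γ⁻¹
  exact (H218.L3.inc_congr isMF_E4.hol h.symm).symm

theorem E4_inc_ne : inc (⇑(E₄) : ℍ → ℂ) isMF_E4.hol ≠ 0 := fun h =>
  E4_ne ((H218.L3.inc_eq_zero isMF_E4.hol).1 h)

theorem act_rM_iff (γ : SL(2, ℤ)) (u b : ZMod (3 * 2 ^ M)) :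
    act γ (rM u b) = rM u b ↔ Fe u b ∣[(4 : ℤ)] γ⁻¹ = Fe u b := by
  rw [act_rM]
  constructor
  · intro h
    unfold rM at h
    rw [div_left_inj' E4_inc_ne] at h
    exact H218.L3.inc_injective _ _ h
  · intro h
    unfold rM
    congr 1
    exact (H218.L3.inc_congr _ h.symm).symm

/-- **`δ` (diagonal modulo the level) permutes the generators.** -/
theorem act_del (δ : SL(2, ℤ)) (hC : ((3 * 2 ^ M : ℕ) : ℤ) ∣ δ 1 0) (hB : ((2 ^ M : ℕ) : ℤ) ∣ δ 0 1)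
    {u : ZMod (3 * 2 ^ M)} (hu : Idx M u) (b : ZMod (3 * 2 ^ M)) :
    act δ (rM u b) = rM (((δ 1 1 : ℤ) : ZMod (3 * 2 ^ M)) * u) (((δ 1 1 : ℤ) : ZMod _) * b) ∧
      Idx M (((δ 1 1 : ℤ) : ZMod (3 * 2 ^ M)) * u) := by
  have e10 : (δ⁻¹ : SL(2, ℤ)) 1 0 = - δ 1 0 := by
    rw [Matrix.SpecialLinearGroup.SL2_inv_expl]; simp
  have e01 : (δ⁻¹ : SL(2, ℤ)) 0 1 = - δ 0 1 := by
    rw [Matrix.SpecialLinearGroup.SL2_inv_expl]; simp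
  have e00 : (δ⁻¹ : SL(2, ℤ)) 0 0 = δ 1 1 := by
    rw [Matrix.SpecialLinearGroup.SL2_inv_expl]; simp
  have h := Fe_del hu b δ⁻¹ (by rw [e10]; exact (dvd_neg).2 hC) (by rw [e01]; exact (dvd_neg).2 hB)
  rw [e00] at h
  refine ⟨?_, h.2⟩
  rw [act_rM]
  unfold rM
  congr 1
  exact (H218.L3.inc_congr _ h.1.symm).symm

/-- **the set of generators.** -/
def Rset (p : MF (G3 M)) : Set (MF (G3 M)) :=
  insert p {x | ∃ u b : ZMod (3 * 2 ^ M), Idx M u ∧ (x : Mer) = rM u b}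

theorem p_mem (p : MF (G3 M)) : p ∈ Rset p := Set.mem_insert _ _

theorem rM_mem_Rset (p : MF (G3 M)) {u : ZMod (3 * 2 ^ M)} (hu : Idx M u) (b : ZMod (3 * 2 ^ M)) :
    (⟨rM u b, rM_mem (fun _ h => inG_of_mem h) hu b⟩ : MF (G3 M)) ∈ Rset p :=
  Or.inr ⟨u, b, hu, rfl⟩

/-- **the stabiliser of `R` in `Γ_0(6)`.** -/
theorem stab_Rset (hM : 2 ≤ M) (p : MF (G3 M)) (γ : SL(2, ℤ)) (hγ : γ ∈ Gamma0 6)
    (h : ∀ r ∈ Rset p, act γ (r : Mer) = r) : γ ∈ G3 M := by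
  have h3 : (3 : ℤ) ∣ (γ⁻¹ : SL(2, ℤ)) 1 0 := by
    have h6 := H218.L3.Gamma0_six_le ((Gamma0 6).inv_mem hγ)
    rw [Gamma0_mem, ZMod.intCast_zmod_eq_zero_iff_dvd] at h6
    exact_mod_cast h6
  have h4 : Vale.Agent.P022.L3.InG 3 M γ⁻¹ := by
    refine stab hM γ⁻¹ h3 fun u hu b => ?_
    exact (act_rM_iff γ u b).1 (h ⟨rM u b, rM_mem (fun _ h => inG_of_mem h) hu b⟩
      (rM_mem_Rset p hu b))
  have h5 : γ⁻¹ ∈ G3 M := H218.L3.mem_G3.2 h4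
  exact inv_mem_iff.1 h5

/-- **field `gen` of `Geo`.** -/
theorem gen (hM : 2 ≤ M) (p : MF (G3 M)) (hp : MF (Gamma0 6) = IntermediateField.adjoin ℂ {(p : Mer)}) :
    IntermediateField.adjoin ℂ (Rset p) = ⊤ :=
  H218.L3.gen_top (H218.L3.G3_normal M) p hp (Rset p) (p_mem p) fun γ hγ h =>
    stab_Rset hM p γ hγ h

/-- **`Drat`**: `δ` maps `R` into `R`. -/
theorem act_Rset (hM : 1 ≤ M) (p : MF (G3 M)) (hp6 : (p : Mer) ∈ MF (Gamma0 6)) (δ : SL(2, ℤ))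
    (hC : ((3 * 2 ^ M : ℕ) : ℤ) ∣ δ 1 0) (hB : ((2 ^ M : ℕ) : ℤ) ∣ δ 0 1) (r : MF (G3 M))
    (hr : r ∈ Rset p) : ∃ r' ∈ Rset p, ((r' : MF (G3 M)) : Mer) = act δ (r : Mer) := by
  have h6 : δ ∈ Gamma0 6 := by
    rw [Gamma0_mem, ZMod.intCast_zmod_eq_zero_iff_dvd]
    refine Dvd.dvd.trans ?_ hC
    obtain ⟨k, rfl⟩ : ∃ k, M = k + 1 := ⟨M - 1, by omega⟩
    refine ⟨(2 ^ k : ℤ), ?_⟩
    push_cast
    ring
  rcases hr with rfl | ⟨u, b, hu, hr⟩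
  · exact ⟨r, p_mem r, (H218.L3.act_eq_self hp6 h6).symm⟩
  · obtain ⟨h1, h2⟩ := act_del δ hC hB hu b
    refine ⟨⟨rM (((δ 1 1 : ℤ) : ZMod (3 * 2 ^ M)) * u) (((δ 1 1 : ℤ) : ZMod (3 * 2 ^ M)) * b),
      rM_mem (fun _ h => inG_of_mem h) h2 _⟩, rM_mem_Rset p h2 _, ?_⟩
    rw [hr]
    exact h1.symm

end Vale.Agent.P022.H280.L3
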