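import Vale.Agent.P022.H280.L3.Exp
import Vale.Agent.P022.H218.L3.Amb
import Vale.Agent.P022.H138.L3.Defs

/-!
Helper280 (P022, P022-L3, row [GEN6], file 3): `Fe u0 b` (`u0 = 3 a ≠ 0` modulo `N = 3 * 2 ^ M`) is
a modular form of weight 4 for `G(3, M)` with integral expansion in `t = e(τ / 2^M)`, permuted by
`δ_ℓ`, and the stabilizer of all of them in `Γ_0(3)` is `G(3, M)`.
-/

open UpperHalfPlane hiding I
open ModularForm EisensteinSeries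
open scoped Manifold MatrixGroups ModularForm Real

noncomputable section

namespace Vale.Agent.P022.H280.L3

open Complex (I)

section law

variable {N : ℕ} [NeZero N]

omit [NeZero N] in
theorem det_cast (γ : SL(2, ℤ)) :
    ((γ 0 0 : ℤ) : ZMod N) * ((γ 1 1 : ℤ) : ZMod N) - ((γ 0 1 : ℤ) : ZMod N) * ((γ 1 0 : ℤ) : ZMod N)
      = 1 := by
  have h := Matrix.SpecialLinearGroup.det_coe γ
  rw [Matrix.det_fin_two] at h
  exact_mod_cast congrArg (Int.cast : ℤ → ZMod N) h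

theorem mv_wF (γ : SL(2, ℤ)) (u0 b : ZMod N) (hC : ((γ 1 0 : ℤ) : ZMod N) = 0)
    (hB : u0 * ((γ 0 1 : ℤ) : ZMod N) = 0) :
    mv γ (wF u0 b) = wF (((γ 0 0 : ℤ) : ZMod N) * u0) (((γ 0 0 : ℤ) : ZMod N) * b) := by
  have hd := det_cast (N := N) γ
  rw [hC, mul_zero, sub_zero] at hd
  ext u v
  unfold mv wF
  rw [hC, mul_zero, sub_zero]
  by_cases h : u = ((γ 0 0 : ℤ) : ZMod N) * u0
  · have h1 : u * ((γ 1 1 : ℤ) : ZMod N) = u0 := by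
      rw [h, mul_right_comm, hd, one_mul]
    rw [if_pos h1, if_pos h]
    congr 1
    rw [h, mul_assoc, hB]
    ring
  · have h1 : ¬ u * ((γ 1 1 : ℤ) : ZMod N) = u0 := by
      intro h2
      apply h
      rw [← h2, mul_comm u, ← mul_assoc, hd, one_mul]
    rw [if_neg h1, if_neg h]

theorem Fe_eq (u0 b : ZMod N) : Fe u0 b = (kap N)⁻¹ • Gw (wF u0 b) := rfl

/-- `Fe` moved by an upper triangular class. -/
theorem Fe_slash (γ : SL(2, ℤ)) (u0 b : ZMod N) (hC : ((γ 1 0 : ℤ) : ZMod N) = 0)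
    (hB : u0 * ((γ 0 1 : ℤ) : ZMod N) = 0) :
    Fe u0 b ∣[(4 : ℤ)] γ = Fe (((γ 0 0 : ℤ) : ZMod N) * u0) (((γ 0 0 : ℤ) : ZMod N) * b) := by
  rw [Fe_eq, SL_smul_slash, Gw_slash, mv_wF γ u0 b hC hB, Fe_eq]

theorem Fe_bdd (u0 b : ZMod N) (γ : SL(2, ℤ)) : IsBoundedAtImInfty (Fe u0 b ∣[(4 : ℤ)] γ) := by
  rw [Fe_eq, SL_smul_slash, Gw_slash]
  exact Filter.BoundedAtFilter.smul _ (Gw_bdd _)

theorem Fe_mdiff (u0 b : ZMod N) : MDifferentiable 𝓘(ℂ) 𝓘(ℂ) (Fe u0 b) := by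
  rw [Fe_eq]
  exact (Gw_mdiff _).const_smul _

omit [NeZero N] in
theorem Gw_neg (w : ZMod N → ZMod N → ℂ) : Gw (fun u v => w (-u) (-v)) = Gw w := by
  ext τ
  unfold Gw
  rw [← (Equiv.neg (Fin 2 → ℤ)).tsum_eq (fun x : Fin 2 → ℤ => w (x 0) (x 1) * eisSummand 4 x τ)]
  refine tsum_congr fun x => ?_
  have h : eisSummand 4 (-x) τ = eisSummand 4 x τ := by
    unfold eisSummand
    have h2 : ((((-x) 0 : ℤ) : ℂ) * τ + (((-x) 1 : ℤ) : ℂ)) = -(((x 0 : ℤ) : ℂ) * τ + ((x 1 : ℤ) : ℂ)) := by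
      simp only [Pi.neg_apply]
      push_cast
      ring
    rw [h2]
    exact Even.neg_zpow (show Even (-4 : ℤ) by decide) _
  simp only [Equiv.neg_apply, h, Pi.neg_apply, Int.cast_neg]

theorem Fe_neg (u0 b : ZMod N) : Fe (-u0) (-b) = Fe u0 b := by
  rw [Fe_eq, Fe_eq, ← Gw_neg (wF u0 b)]
  congr 2
  ext u v
  unfold wF
  by_cases h : u = -u0
  · rw [if_pos h, if_pos (by rw [h, neg_neg])]
    congr 1
    ring
  · rw [if_neg h, if_neg (fun h2 => h (by rw [← h2, neg_neg]))]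

end law

section level

variable (M : ℕ)

instance : NeZero (3 * 2 ^ M) := ⟨by positivity⟩

/-- the allowed first index: a nonzero multiple of 3 modulo `3 * 2 ^ M`. -/
def Idx (u : ZMod (3 * 2 ^ M)) : Prop := u ≠ 0 ∧ ∃ a : ZMod (3 * 2 ^ M), u = 3 * a

variable {M}

theorem cast_dvd {u : ZMod (3 * 2 ^ M)} (hu : Idx M u) {B : ℤ} (hB : ((2 ^ M : ℕ) : ℤ) ∣ B) :
    u * (B : ZMod (3 * 2 ^ M)) = 0 := by
  obtain ⟨-, a, rfl⟩ := hu
  obtain ⟨c, rfl⟩ := hB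
  have h : ((3 : ZMod (3 * 2 ^ M)) * ((2 ^ M : ℕ) : ZMod (3 * 2 ^ M))) = 0 := by
    have := ZMod.natCast_self (3 * 2 ^ M)
    rw [Nat.cast_mul] at this
    exact_mod_cast this
  push_cast at h ⊢
  calc (3 * a * (2 ^ M * (c : ZMod (3 * 2 ^ M)))) = (3 * 2 ^ M) * (a * c) := by ring
    _ = 0 := by rw [h, zero_mul]

theorem cast_zero_of_dvd {C : ℤ} (hC : ((3 * 2 ^ M : ℕ) : ℤ) ∣ C) : (C : ZMod (3 * 2 ^ M)) = 0 :=
  (ZMod.intCast_zmod_eq_zero_iff_dvd C (3 * 2 ^ M)).2 hC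

theorem Idx.mul {u : ZMod (3 * 2 ^ M)} (hu : Idx M u) {A D : ZMod (3 * 2 ^ M)} (h : A * D = 1) :
    Idx M (A * u) := by
  refine ⟨fun h0 => hu.1 ?_, ?_⟩
  · calc u = D * (A * u) := by rw [← mul_assoc, mul_comm D, h, one_mul]
      _ = 0 := by rw [h0, mul_zero]
  · obtain ⟨-, a, rfl⟩ := hu
    exact ⟨A * a, by ring⟩

/-- **`δ_ℓ` permutes the generators.** -/
theorem Fe_del {u : ZMod (3 * 2 ^ M)} (hu : Idx M u) (b : ZMod (3 * 2 ^ M)) (δ : SL(2, ℤ))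
    (hC : ((3 * 2 ^ M : ℕ) : ℤ) ∣ δ 1 0) (hB : ((2 ^ M : ℕ) : ℤ) ∣ δ 0 1) :
    Fe u b ∣[(4 : ℤ)] δ = Fe (((δ 0 0 : ℤ) : ZMod (3 * 2 ^ M)) * u) (((δ 0 0 : ℤ) : ZMod _) * b) ∧
      Idx M (((δ 0 0 : ℤ) : ZMod (3 * 2 ^ M)) * u) := by
  have hC' := cast_zero_of_dvd hC
  refine ⟨Fe_slash δ u b hC' (cast_dvd hu hB), hu.mul (D := ((δ 1 1 : ℤ) : ZMod (3 * 2 ^ M))) ?_⟩
  have := det_cast (N := 3 * 2 ^ M) δ
  rwa [hC', mul_zero, sub_zero] at this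

theorem Fe_inG {u : ZMod (3 * 2 ^ M)} (hu : Idx M u) (b : ZMod (3 * 2 ^ M)) (γ : SL(2, ℤ))
    (h : Vale.Agent.P022.L3.InG 3 M γ) : Fe u b ∣[(4 : ℤ)] γ = Fe u b := by
  obtain ⟨hC, hB, hD⟩ := h
  rw [(Fe_del hu b γ hC hB).1]
  have hdet := det_cast (N := 3 * 2 ^ M) γ
  rw [cast_zero_of_dvd hC, mul_zero, sub_zero] at hdet
  rcases hD with hD | hD
  · have h1 := cast_zero_of_dvd hD
    push_cast at h1
    have h2 : ((γ 1 1 : ℤ) : ZMod (3 * 2 ^ M)) = 1 := sub_eq_zero.1 h1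
    rw [h2, mul_one] at hdet
    rw [hdet, one_mul, one_mul]
  · have h1 := cast_zero_of_dvd hD
    push_cast at h1
    have h2 : ((γ 1 1 : ℤ) : ZMod (3 * 2 ^ M)) = -1 := eq_neg_of_add_eq_zero_left h1
    rw [h2, mul_neg, mul_one] at hdet
    have h3 : ((γ 0 0 : ℤ) : ZMod (3 * 2 ^ M)) = -1 := by rw [← hdet, neg_neg]
    rw [h3, neg_one_mul, neg_one_mul, Fe_neg]

/-- **`Fe` is a modular form of weight 4 for every subgroup of `G(3, M)`.** -/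
theorem isMF_Fe {Γ : Subgroup SL(2, ℤ)} (hΓ : ∀ γ ∈ Γ, Vale.Agent.P022.L3.InG 3 M γ)
    {u : ZMod (3 * 2 ^ M)} (hu : Idx M u) (b : ZMod (3 * 2 ^ M)) :
    H218.L3.IsMF Γ 4 (Fe u b) where
  hol := Fe_mdiff u b
  slash γ hγ := Fe_inG hu b γ (hΓ γ hγ)
  bdd γ := Fe_bdd u b γ

theorem three_dvd {u : ZMod (3 * 2 ^ M)} (hu : ∃ a : ZMod (3 * 2 ^ M), u = 3 * a) {c : ℕ}
    (hc : (c : ZMod (3 * 2 ^ M)) = u) : 3 ∣ c := by
  obtain ⟨a, rfl⟩ := hu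
  have h := congrArg (ZMod.castHom (show 3 ∣ 3 * 2 ^ M from ⟨2 ^ M, rfl⟩) (ZMod 3)) hc
  rw [map_natCast, map_mul] at h
  have h3 : (ZMod.castHom (show 3 ∣ 3 * 2 ^ M from ⟨2 ^ M, rfl⟩) (ZMod 3)) 3 = 0 := by
    rw [show (3 : ZMod (3 * 2 ^ M)) = ((3 : ℕ) : ZMod (3 * 2 ^ M)) by norm_cast, map_natCast]
    decide
  rw [h3, zero_mul] at h
  exact (ZMod.natCast_eq_zero_iff c 3).1 h

theorem cf_zero {u : ZMod (3 * 2 ^ M)} (hu : ∃ a : ZMod (3 * 2 ^ M), u = 3 * a)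
    (b : ZMod (3 * 2 ^ M)) {n : ℕ} (hn : ¬ 3 ∣ n) : cf u b n = 0 := by
  unfold cf
  refine Finset.sum_eq_zero fun p hp => ?_
  have hpn := (Nat.mem_divisorsAntidiagonal.1 hp).1
  have hp3 : ¬ 3 ∣ p.1 := fun h => hn (hpn ▸ Dvd.dvd.mul_right h p.2)
  unfold cc
  rw [if_neg, if_neg]
  · simp
  · rintro ⟨h, -⟩
    refine hp3 (three_dvd ?_ h)
    obtain ⟨a, rfl⟩ := hu
    exact ⟨-a, by ring⟩
  · rintro ⟨h, -⟩
    exact hp3 (three_dvd hu h)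

/-- the integral coefficients in `t = e(τ / 2^M)`. -/
def cg (u b : ZMod (3 * 2 ^ M)) (n : ℕ) : ℤ := cf u b (3 * n)

/-- **The integral `t`-expansion, `t = e(τ / 2^M)`.** -/
theorem Fe_exp {u : ZMod (3 * 2 ^ M)} (hu : Idx M u) (b : ZMod (3 * 2 ^ M)) (τ : ℍ) :
    HasSum (fun n : ℕ => (cg u b n : ℂ) * Complex.exp (2 * π * I * τ / ((2 ^ M : ℕ) : ℂ)) ^ n)
      (Fe u b τ) := by
  have h := Fe_hasSum u b hu.1 τ
  have hinj : Function.Injective (fun n : ℕ => 3 * n) := fun a b h => by simpa using h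
  rw [← hinj.hasSum_iff] at h
  · have hE : Complex.exp (2 * π * I * τ / ((3 * 2 ^ M : ℕ) : ℂ)) ^ 3
        = Complex.exp (2 * π * I * τ / ((2 ^ M : ℕ) : ℂ)) := by
      rw [← Complex.exp_nat_mul]
      congr 1
      have h2 : (((2 ^ M : ℕ)) : ℂ) ≠ 0 := by
        have : (2 ^ M : ℕ) ≠ 0 := by positivity
        exact_mod_cast this
      rw [Nat.cast_mul]
      push_cast at h2 ⊢
      field_simp
    have hF : (fun n : ℕ => (cg u b n : ℂ) * Complex.exp (2 * π * I * τ / ((2 ^ M : ℕ) : ℂ)) ^ n)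
        = (fun n : ℕ => (cf u b n : ℂ) * Complex.exp (2 * π * I * τ / ((3 * 2 ^ M : ℕ) : ℂ)) ^ n) ∘
          (fun n : ℕ => 3 * n) := by
      funext n
      simp only [Function.comp_apply, cg]
      rw [pow_mul, hE]
    rw [hF]
    exact h
  · intro n hn
    rw [cf_zero hu.2 b, Int.cast_zero, zero_mul]
    rintro ⟨k, rfl⟩
    exact hn ⟨k, rfl⟩

/-! ### the stabilizer -/

/-- uniqueness of expansions. -/
theorem coeff_unique {h : ℝ} (hh : 0 < h) {F : ℍ → ℂ} {a b : ℕ → ℂ}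
    (ha : ∀ τ : ℍ, HasSum (fun n => a n * Function.Periodic.qParam h τ ^ n) (F τ))
    (hb : ∀ τ : ℍ, HasSum (fun n => b n * Function.Periodic.qParam h τ ^ n) (F τ)) : a = b := by
  have h0 : ∀ τ : ℍ, HasSum (fun n => (a n - b n) • Function.Periodic.qParam h τ ^ n)
      ((0 : ℍ → ℂ) τ) := by
    intro τ
    have := (ha τ).sub (hb τ)
    rw [sub_self] at this
    simpa [sub_mul] using this
  have hc : cuspFunction h (0 : ℍ → ℂ) = 0 := by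
    simpa [cuspFunction, Function.Periodic.cuspFunction]
      using! (tendsto_const_nhds.mono_left nhdsWithin_le_nhds).limUnder_eq
  have h1 := hasFPowerSeriesOnBall_cuspFunction hh (by rw [hc]; exact analyticAt_const) h0
  rw [hc] at h1
  have h2 := h1.hasFPowerSeriesAt.eq_zero
  rw [FormalMultilinearSeries.ofScalars_series_eq_zero] at h2
  funext n
  exact sub_eq_zero.1 (congrFun h2 n)

end level

end Vale.Agent.P022.H280.L3
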