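import Mathlib

/-!
Helper280 (P022, P022-L3, row [GEN6], file 1): Eisenstein lattice sums of weight 4 and level `N`.

* `Gw w τ = ∑' x : Fin 2 → ℤ, w (x 0) (x 1) * (x 0 * τ + x 1) ^ (-4)`, `w : ZMod N → ZMod N → ℂ`;
* `Gw_slash` : the action of every matrix of `SL(2, ℤ)`;
* `Gw_mdiff`, `Gw_bdd` : holomorphic, bounded at `i∞`.
-/

open UpperHalfPlane ModularForm EisensteinSeries Matrix
open scoped Manifold MatrixGroups ModularForm Real

noncomputable section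

namespace Vale.Agent.P022.H280.L3

variable {N : ℕ}

/-- The lattice sum of weight four with the periodic weight `w`. -/
def Gw (w : ZMod N → ZMod N → ℂ) (τ : ℍ) : ℂ :=
  ∑' x : Fin 2 → ℤ, w (x 0) (x 1) * eisSummand 4 x τ

theorem mm1 (γ : SL(2, ℤ)) : (γ : Matrix (Fin 2) (Fin 2) ℤ) *
    ((γ⁻¹ : SL(2, ℤ)) : Matrix (Fin 2) (Fin 2) ℤ) = 1 :=
  congrArg Subtype.val (mul_inv_cancel γ)

theorem mm2 (γ : SL(2, ℤ)) : ((γ⁻¹ : SL(2, ℤ)) : Matrix (Fin 2) (Fin 2) ℤ) *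
    (γ : Matrix (Fin 2) (Fin 2) ℤ) = 1 :=
  congrArg Subtype.val (inv_mul_cancel γ)

/-- right multiplication of row vectors by a matrix in `SL(2, ℤ)`. -/
def vm (γ : SL(2, ℤ)) : (Fin 2 → ℤ) ≃ (Fin 2 → ℤ) where
  toFun x := x ᵥ* (γ : Matrix (Fin 2) (Fin 2) ℤ)
  invFun x := x ᵥ* ((γ⁻¹ : SL(2, ℤ)) : Matrix (Fin 2) (Fin 2) ℤ)
  left_inv x := (vecMul_vecMul x _ _).trans ((congrArg (fun A => x ᵥ* A) (mm1 γ)).trans
    (vecMul_one x))
  right_inv x := (vecMul_vecMul x _ _).trans ((congrArg (fun A => x ᵥ* A) (mm2 γ)).trans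
    (vecMul_one x))

theorem vm_apply (γ : SL(2, ℤ)) (x : Fin 2 → ℤ) : vm γ x = x ᵥ* (γ : Matrix (Fin 2) (Fin 2) ℤ) := rfl

theorem vm_symm_zero (γ : SL(2, ℤ)) (x : Fin 2 → ℤ) :
    (vm γ).symm x 0 = x 0 * γ 1 1 - x 1 * γ 1 0 := by
  change (x ᵥ* ((γ⁻¹ : SL(2, ℤ)) : Matrix (Fin 2) (Fin 2) ℤ)) 0 = _
  rw [SpecialLinearGroup.SL2_inv_expl]
  simp [vecMul, dotProduct, Fin.sum_univ_two]
  ring

theorem vm_symm_one (γ : SL(2, ℤ)) (x : Fin 2 → ℤ) :
    (vm γ).symm x 1 = x 1 * γ 0 0 - x 0 * γ 0 1 := by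
  change (x ᵥ* ((γ⁻¹ : SL(2, ℤ)) : Matrix (Fin 2) (Fin 2) ℤ)) 1 = _
  rw [SpecialLinearGroup.SL2_inv_expl]
  simp [vecMul, dotProduct, Fin.sum_univ_two]
  ring

/-- The weight `w` moved by `γ`. -/
def mv (γ : SL(2, ℤ)) (w : ZMod N → ZMod N → ℂ) (u v : ZMod N) : ℂ :=
  w (u * (γ 1 1 : ℤ) - v * (γ 1 0 : ℤ)) (v * (γ 0 0 : ℤ) - u * (γ 0 1 : ℤ))

/-- The transformation law for all of `SL(2, ℤ)`. -/
theorem Gw_slash (w : ZMod N → ZMod N → ℂ) (γ : SL(2, ℤ)) :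
    Gw w ∣[(4 : ℤ)] γ = Gw (mv γ w) := by
  ext τ
  rw [SL_slash_apply]
  unfold Gw
  rw [← (vm γ).tsum_eq (fun x : Fin 2 → ℤ => mv γ w (x 0) (x 1) * eisSummand 4 x τ)]
  have h : ∀ x : Fin 2 → ℤ, w (x 0) (x 1) * eisSummand 4 x (γ • τ)
      = denom γ τ ^ (4 : ℤ) * (mv γ w ((vm γ x) 0) ((vm γ x) 1) * eisSummand 4 (vm γ x) τ) := by
    intro x
    rw [eisSummand_SL2_apply, vm_apply]
    have h0 := vm_symm_zero γ (vm γ x)
    have h1 := vm_symm_one γ (vm γ x)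
    rw [Equiv.symm_apply_apply] at h0 h1
    have : mv γ w ((vm γ x) 0) ((vm γ x) 1) = w (x 0) (x 1) := by
      unfold mv
      rw [h0, h1]
      push_cast
      rfl
    rw [vm_apply] at this
    rw [this]
    ring
  simp_rw [h, tsum_mul_left]
  rw [mul_comm, ← mul_assoc, ← zpow_add₀ (denom_ne_zero _ _)]
  simp

/-- A bound for the weight. -/
theorem exists_bound [NeZero N] (w : ZMod N → ZMod N → ℂ) : ∃ C : ℝ, 0 ≤ C ∧ ∀ u v, ‖w u v‖ ≤ C := by
  refine ⟨∑ u, ∑ v, ‖w u v‖, by positivity, fun u v => ?_⟩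
  calc ‖w u v‖ ≤ ∑ v, ‖w u v‖ :=
        Finset.single_le_sum (f := fun v => ‖w u v‖) (fun _ _ => norm_nonneg _) (Finset.mem_univ v)
    _ ≤ _ := Finset.single_le_sum (f := fun u => ∑ v, ‖w u v‖) (fun _ _ => by positivity)
        (Finset.mem_univ u)

theorem summable_Gw [NeZero N] (w : ZMod N → ZMod N → ℂ) (τ : ℍ) :
    Summable fun x : Fin 2 → ℤ => w (x 0) (x 1) * eisSummand 4 x τ := by
  obtain ⟨C, hC, h⟩ := exists_bound w
  refine Summable.of_norm_bounded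
    ((summable_norm_eisSummand (k := 4) (by norm_num) τ).mul_left C) fun x => ?_
  rw [norm_mul]
  exact mul_le_mul_of_nonneg_right (h _ _) (norm_nonneg _)

/-- The sum of the absolute values. -/
def Sn (τ : ℍ) : ℝ := ∑' x : Fin 2 → ℤ, ‖eisSummand 4 x τ‖

theorem norm_Gw_le [NeZero N] (w : ZMod N → ZMod N → ℂ) :
    ∃ C : ℝ, 0 ≤ C ∧ ∀ τ : ℍ, ‖Gw w τ‖ ≤ C * Sn τ := by
  obtain ⟨C, hC, h⟩ := exists_bound w
  refine ⟨C, hC, fun τ => ?_⟩
  unfold Gw Sn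
  rw [← tsum_mul_left]
  refine tsum_of_norm_bounded
    (((summable_norm_eisSummand (k := 4) (by norm_num) τ).mul_left C).hasSum) fun x => ?_
  rw [norm_mul]
  exact mul_le_mul_of_nonneg_right (h _ _) (norm_nonneg _)

theorem Sn_T (n : ℤ) (τ : ℍ) : Sn (ModularGroup.T ^ n • τ) = Sn τ := by
  unfold Sn
  rw [← (vm (ModularGroup.T ^ n)).tsum_eq (fun x : Fin 2 → ℤ => ‖eisSummand 4 x τ‖)]
  refine tsum_congr fun x => ?_
  rw [eisSummand_SL2_apply, vm_apply]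
  have : denom (ModularGroup.T ^ n : SL(2, ℤ)) τ = 1 := by
    rw [ModularGroup.denom_apply]
    have h := ModularGroup.coe_T_zpow n
    have h0 : (ModularGroup.T ^ n : SL(2, ℤ)) 1 0 = 0 := by
      have := congrFun (congrFun h 1) 0
      simpa using this
    have h1 : (ModularGroup.T ^ n : SL(2, ℤ)) 1 1 = 1 := by
      have := congrFun (congrFun h 1) 1
      simpa using this
    rw [h0, h1]
    simp
  rw [this]
  simp

theorem Gw_bdd [NeZero N] (w : ZMod N → ZMod N → ℂ) : IsBoundedAtImInfty (Gw w) := by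
  obtain ⟨C, hC, h⟩ := norm_Gw_le w
  rw [UpperHalfPlane.isBoundedAtImInfty_iff]
  refine ⟨C * ∑' x : Fin 2 → ℤ, r ⟨⟨(1 : ℕ), 2⟩, Nat.ofNat_pos⟩ ^ (-4 : ℝ) * ‖x‖ ^ (-4 : ℝ), 2, ?_⟩
  intro z hz
  refine (h z).trans (mul_le_mul_of_nonneg_left ?_ hC)
  obtain ⟨n, hn⟩ := (ModularGroup_T_zpow_mem_verticalStrip z (Nat.one_pos))
  rw [← Sn_T ((1 : ℕ) * n) z]
  have hk' : (2 : ℝ) < 4 := by norm_num
  unfold Sn
  refine (summable_norm_eisSummand (k := 4) (by norm_num) _).tsum_le_tsum (fun x => ?_)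
    ((summable_one_div_norm_rpow hk').mul_left _)
  simp_rw [eisSummand, norm_zpow]
  have := summand_bound_of_mem_verticalStrip (k := 4) (by norm_num) x two_pos
      (verticalStrip_anti_right (1 : ℕ) hz hn)
  refine le_trans (le_of_eq ?_) this
  rw [← Real.rpow_intCast]
  norm_num

theorem Gw_mdiff [NeZero N] (w : ZMod N → ZMod N → ℂ) : MDifferentiable 𝓘(ℂ) 𝓘(ℂ) (Gw w) := by
  obtain ⟨C, hC, hw⟩ := exists_bound w
  rw [UpperHalfPlane.mdifferentiable_iff]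
  have hloc : TendstoLocallyUniformly (fun (s : Finset (Fin 2 → ℤ)) (τ : ℍ) =>
      ∑ x ∈ s, w (x 0) (x 1) * eisSummand 4 x τ) (Gw w) Filter.atTop := by
    have p_sum : Summable fun x : Fin 2 → ℤ ↦ ‖x‖ ^ (-4 : ℝ) :=
      summable_one_div_norm_rpow (by norm_num)
    rw [tendstoLocallyUniformly_iff_forall_isCompact]
    intro K hK
    obtain ⟨A, B, hB, HABK⟩ := subset_verticalStrip_of_isCompact hK
    unfold Gw
    refine (tendstoUniformlyOn_tsum (hu := (p_sum.mul_left <| r ⟨⟨A, B⟩, hB⟩ ^ (-4 : ℝ)).mul_left C)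
      (fun p z hz ↦ ?_)).mono HABK
    rw [norm_mul]
    refine mul_le_mul (hw _ _) ?_ (norm_nonneg _) hC
    have := summand_bound_of_mem_verticalStrip (k := 4) (by norm_num) p hB hz
    refine le_trans (le_of_eq ?_) this
    rw [eisSummand, norm_zpow, ← Real.rpow_intCast]
    norm_num
  have hon : TendstoLocallyUniformlyOn (fun (s : Finset (Fin 2 → ℤ)) =>
      (fun (τ : ℍ) => ∑ x ∈ s, w (x 0) (x 1) * eisSummand 4 x τ) ∘ ofComplex)
      (Gw w ∘ ofComplex) Filter.atTop {z : ℂ | 0 < z.im} := by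
    rw [← upperHalfPlaneSet, ← range_coe, ← Set.image_univ]
    apply TendstoLocallyUniformlyOn.comp (s := ⊤) _ _ _ (OpenPartialHomeomorph.continuousOn_symm _)
    · simp only [Set.top_eq_univ, tendstoLocallyUniformlyOn_univ]
      exact hloc
    · simp only [Topology.IsOpenEmbedding.toOpenPartialHomeomorph_target, Set.top_eq_univ, Set.mapsTo_range_iff,
        Set.mem_univ, forall_const]
  refine hon.differentiableOn (Filter.Eventually.of_forall fun s ↦ ?_) isOpen_upperHalfPlaneSet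
  have : ((fun (τ : ℍ) => ∑ x ∈ s, w (x 0) (x 1) * eisSummand 4 x τ) ∘ ofComplex)
      = fun z => ∑ x ∈ s, w (x 0) (x 1) * (eisSummand 4 x ∘ ofComplex) z := by
    ext z; simp
  rw [this]
  exact DifferentiableOn.fun_sum fun x _ ↦
    (eisSummand_extension_differentiableOn 4 x).const_mul _

end Vale.Agent.P022.H280.L3
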