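import Vale.Agent.P022.H280.L3.Eis

/-!
Helper280 (P022, P022-L3, row [GEN6], file 2): the integral expansions of the Eisenstein sums
`Fe u0 b`, `u0 ≠ 0` (no constant term).
-/

open UpperHalfPlane hiding I
open ModularForm EisensteinSeries
open scoped Manifold MatrixGroups ModularForm Real

noncomputable section

namespace Vale.Agent.P022.H280.L3

open Complex (I)

variable {N : ℕ} [NeZero N]

/-- the additive character `v ↦ e(v / N)`. -/
abbrev ps (N : ℕ) [NeZero N] : AddChar (ZMod N) ℂ := ZMod.stdAddChar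

theorem ps_int (j : ℤ) : ps N (j : ZMod N) = Complex.exp (2 * π * I * j / N) :=
  ZMod.stdAddChar_coe j

theorem norm_ps (v : ZMod N) : ‖ps N v‖ = 1 := by
  rw [ps, ZMod.stdAddChar_apply]
  exact Circle.norm_coe _

/-- the constant of the Lipschitz formula of weight four and level `N`. -/
def kap (N : ℕ) : ℂ := (-2 * π * I) ^ 4 / (Nat.factorial 3) / (N : ℂ) ^ 3

theorem kap_ne : kap N ≠ 0 := by
  unfold kap
  have : (π : ℂ) ≠ 0 := by exact_mod_cast Real.pi_ne_zero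
  have hN : (N : ℂ) ≠ 0 := by exact_mod_cast NeZero.ne N
  simp [this, hN, Nat.factorial]

theorem sum_fin (c : ZMod N) :
    ∑ i : Fin N, ps N ((i : ℕ) * c) = if c = 0 then (N : ℂ) else 0 := by
  have hbij : Function.Bijective (fun i : Fin N => ((i : ℕ) : ZMod N)) := by
    rw [Fintype.bijective_iff_injective_and_card]
    refine ⟨fun i j h => ?_, by simp [ZMod.card]⟩
    have := (ZMod.natCast_eq_natCast_iff' _ _ _).1 h
    rw [Nat.mod_eq_of_lt i.2, Nat.mod_eq_of_lt j.2] at this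
    exact Fin.ext this
  have h1 : ∑ i : Fin N, ps N ((i : ℕ) * c) = ∑ x : ZMod N, ps N (x * c) :=
    Fintype.sum_bijective _ hbij _ _ fun i => rfl
  rw [h1, AddChar.sum_mulShift c (ZMod.isPrimitive_stdAddChar N)]
  split_ifs <;> simp [ZMod.card]

theorem summable_lin (z : ℍ) : Summable fun d : ℤ => ((z : ℂ) + d) ^ (-4 : ℤ) := by
  have := linear_right_summable (z : ℂ) 1 (k := 4) (by norm_num)
  simpa [zpow_neg] using this

theorem summable_cube {q : ℂ} (hq : ‖q‖ < 1) : Summable fun r : ℕ => ((r : ℂ) ^ 3) * q ^ r := by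
  have := summable_pow_mul_geometric_of_norm_lt_one 3 hq
  exact this

/-- The inner sum. -/
theorem inner (z : ℍ) (b : ZMod N) :
    ∑' d : ℤ, ps N (-(b * d)) * ((z : ℂ) + d) ^ (-4 : ℤ)
      = kap N * ∑' r : ℕ, (if (r : ZMod N) = b then (r : ℂ) ^ 3 else 0) *
          Complex.exp (2 * π * I * z / N) ^ r := by
  have hN : (N : ℂ) ≠ 0 := by exact_mod_cast NeZero.ne N
  have hNr : (0 : ℝ) < N := by exact_mod_cast Nat.pos_of_ne_zero (NeZero.ne N)
  set q : ℂ := Complex.exp (2 * π * I * z / N) with hq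
  have hq1 : ‖q‖ < 1 := by
    have := UpperHalfPlane.norm_exp_two_pi_I_lt_one ⟨(z : ℂ) / N, by
      rw [show ((z : ℂ) / N) = (z : ℂ) / ((N : ℝ) : ℂ) by push_cast; rfl, Complex.div_ofReal_im]
      exact div_pos z.2 hNr⟩
    rw [hq]
    convert this using 3
    push_cast
    ring
  have hsum : Summable fun d : ℤ => ps N (-(b * d)) * ((z : ℂ) + d) ^ (-4 : ℤ) := by
    refine Summable.of_norm ?_
    simp_rw [norm_mul, norm_ps, one_mul]
    exact (summable_lin z).norm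
  have hsum2 := (Int.divModEquiv N).symm.summable_iff.2 hsum
  have hsum3 := (Equiv.prodComm (Fin N) ℤ).summable_iff.2 hsum2
  have hL : ∑' d : ℤ, ps N (-(b * d)) * ((z : ℂ) + d) ^ (-4 : ℤ)
      = ∑ i : Fin N, ∑' j : ℤ, (((fun d : ℤ => ps N (-(b * d)) * ((z : ℂ) + d) ^ (-4 : ℤ)) ∘
        (Int.divModEquiv N).symm) ∘ (Equiv.prodComm (Fin N) ℤ)) (i, j) :=
    (((Int.divModEquiv N).symm.tsum_eq _).symm.trans
      ((Equiv.prodComm (Fin N) ℤ).tsum_eq _).symm).trans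
      ((Summable.tsum_prod hsum3).trans (tsum_fintype _))
  rw [hL]
  have hi : ∀ i : Fin N, ∑' j : ℤ, (((fun d : ℤ => ps N (-(b * d)) * ((z : ℂ) + d) ^ (-4 : ℤ)) ∘
        (Int.divModEquiv N).symm) ∘ (Equiv.prodComm (Fin N) ℤ)) (i, j)
      = ∑' r : ℕ, ((-2 * π * I) ^ 4 / (Nat.factorial 3) / (N : ℂ) ^ 4) *
          (((r : ℂ) ^ 3 * q ^ r) * ps N ((i : ℕ) * ((r : ZMod N) - b))) := by
    intro i
    have him : 0 < (((z : ℂ) + (i : ℕ)) / N).im := by
      rw [show (((z : ℂ) + (i : ℕ)) / N) = ((z : ℂ) + (i : ℕ)) / ((N : ℝ) : ℂ) by push_cast; rfl,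
        Complex.div_ofReal_im]
      refine div_pos ?_ hNr
      simpa using z.2
    have key := EisensteinSeries.qExpansion_identity (k := 3) (by norm_num)
      (⟨((z : ℂ) + (i : ℕ)) / N, him⟩ : ℍ)
    have e1 : ∀ j : ℤ, (((fun d : ℤ => ps N (-(b * d)) * ((z : ℂ) + d) ^ (-4 : ℤ)) ∘
        (Int.divModEquiv N).symm) ∘ (Equiv.prodComm (Fin N) ℤ)) (i, j)
        = (ps N (-(b * (i : ℕ))) / (N : ℂ) ^ 4) *
          (1 / ((((z : ℂ) + (i : ℕ)) / N) + j) ^ (3 + 1)) := by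
      intro j
      simp only [Function.comp_apply, Equiv.prodComm_apply, Prod.swap_prod_mk,
        Int.divModEquiv_symm_apply]
      have h1 : ((((j * N + ((i : ℕ) : ℤ) : ℤ)) : ZMod N)) = ((i : ℕ) : ZMod N) := by
        push_cast
        simp
      rw [h1]
      have h2 : ((z : ℂ) + ((j * N + ((i : ℕ) : ℤ) : ℤ) : ℂ)) = N * ((((z : ℂ) + (i : ℕ)) / N) + j) := by
        push_cast
        field_simp
        ring
      rw [h2]
      generalize (((z : ℂ) + (i : ℕ)) / N) + j = X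
      rw [zpow_neg, mul_zpow, mul_inv, show (3 + 1 : ℕ) = 4 from rfl]
      have h4 : ∀ Y : ℂ, Y ^ (4 : ℤ) = Y ^ (4 : ℕ) := fun Y => by norm_cast
      rw [h4, h4]
      ring
    rw [tsum_congr e1, tsum_mul_left, tsum_mul_left]
    have key' : ∑' n : ℤ, 1 / ((((z : ℂ) + (i : ℕ)) / N) + n) ^ (3 + 1)
        = ((-2 * π * I) ^ (3 + 1) / (Nat.factorial 3)) *
          ∑' n : ℕ, (n : ℂ) ^ 3 * Complex.exp (2 * π * I * (((z : ℂ) + (i : ℕ)) / N)) ^ n := key
    rw [key']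
    have e2 : ∀ r : ℕ, ((r : ℂ) ^ 3 * q ^ r) * ps N ((i : ℕ) * ((r : ZMod N) - b))
        = ps N (-(b * (i : ℕ))) *
          ((r : ℂ) ^ 3 * Complex.exp (2 * π * I * (((z : ℂ) + (i : ℕ)) / N)) ^ r) := by
      intro r
      have h3 : ps N ((i : ℕ) * ((r : ZMod N) - b))
          = ps N (-(b * (i : ℕ))) * Complex.exp (2 * π * I * (i : ℕ) / N) ^ r := by
        rw [show ((i : ℕ) : ZMod N) * ((r : ZMod N) - b) = -(b * (i : ℕ)) + r • (((i : ℕ) : ℤ) : ZMod N)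
          by push_cast; rw [nsmul_eq_mul]; ring, AddChar.map_add_eq_mul, AddChar.map_nsmul_eq_pow,
          ps_int]
        push_cast
        rfl
      rw [h3, show (2 * π * I * (((z : ℂ) + (i : ℕ)) / N))
        = 2 * π * I * z / N + 2 * π * I * (i : ℕ) / N by ring, Complex.exp_add, mul_pow]
      ring
    rw [tsum_congr e2, tsum_mul_left]
    ring
  rw [Finset.sum_congr rfl fun i _ => hi i]
  have hsr : ∀ i : Fin N, Summable fun r : ℕ =>
      ((-2 * π * I) ^ 4 / (Nat.factorial 3) / (N : ℂ) ^ 4) *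
          (((r : ℂ) ^ 3 * q ^ r) * ps N ((i : ℕ) * ((r : ZMod N) - b))) := by
    intro i
    refine Summable.mul_left _ (Summable.of_norm ?_)
    simp_rw [norm_mul _ (ps N _), norm_ps, mul_one]
    exact (summable_cube hq1).norm
  rw [← Summable.tsum_finsetSum fun i _ => hsr i, ← tsum_mul_left]
  refine tsum_congr fun r => ?_
  rw [← Finset.mul_sum, ← Finset.mul_sum, sum_fin]
  unfold kap
  by_cases hr : (r : ZMod N) = b
  · simp only [hr, sub_self, if_true]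
    field_simp
  · rw [if_neg hr, if_neg (sub_ne_zero.2 hr)]
    simp

/-- The weight of `Fe`. -/
def wF (u0 b u v : ZMod N) : ℂ := if u = u0 then ps N (-(b * v)) else 0

/-- The Eisenstein sum with integral expansion. -/
def Fe (u0 b : ZMod N) (τ : ℍ) : ℂ := (kap N)⁻¹ * Gw (wF u0 b) τ

/-- The coefficient of `(c, r)`. -/
def cc (u0 b : ZMod N) (c r : ℕ) : ℤ :=
  (if (c : ZMod N) = u0 ∧ (r : ZMod N) = b then 1 else 0) +
    (if (c : ZMod N) = -u0 ∧ (r : ZMod N) = -b then 1 else 0)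

/-- The coefficients of `Fe`. -/
def cf (u0 b : ZMod N) (n : ℕ) : ℤ :=
  ∑ p ∈ n.divisorsAntidiagonal, cc u0 b p.1 p.2 * (p.2 : ℤ) ^ 3

theorem hasSum_div (a : ℕ → ℕ → ℤ) (ha : ∀ c r, |a c r| ≤ 2) {Q : ℂ} (hQ : ‖Q‖ < 1) :
    HasSum (fun n : ℕ => ((∑ p ∈ n.divisorsAntidiagonal, a p.1 p.2 * (p.2 : ℤ) ^ 3 : ℤ) : ℂ) * Q ^ n)
      (∑' c : ℕ+, ∑' r : ℕ+, (a c r : ℂ) * (r : ℂ) ^ 3 * Q ^ (c * r : ℕ)) := by
  have hS : Summable fun c : ℕ+ × ℕ+ => (a c.1 c.2 : ℂ) * (c.2 : ℂ) ^ 3 * Q ^ (c.1 * c.2 : ℕ) := by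
    refine Summable.of_norm_bounded ((summable_prod_mul_pow 3 hQ).norm.mul_left 2) fun c => ?_
    rw [mul_assoc, norm_mul]
    refine mul_le_mul_of_nonneg_right ?_ (norm_nonneg _)
    rw [Complex.norm_intCast]
    exact_mod_cast ha _ _
  rw [← hS.tsum_prod]
  have h1 := (sigmaAntidiagonalEquivProd.hasSum_iff).2 hS.hasSum
  have h2 := h1.sigma (g := fun n : ℕ+ =>
    (((∑ p ∈ (n : ℕ).divisorsAntidiagonal, a p.1 p.2 * (p.2 : ℤ) ^ 3 : ℤ) : ℂ) * Q ^ (n : ℕ)))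
    (fun n => by
      have : (((∑ p ∈ (n : ℕ).divisorsAntidiagonal, a p.1 p.2 * (p.2 : ℤ) ^ 3 : ℤ) : ℂ) * Q ^ (n : ℕ))
          = ∑ x : (n : ℕ).divisorsAntidiagonal,
            (a x.1.1 x.1.2 : ℂ) * (x.1.2 : ℂ) ^ 3 * Q ^ (x.1.1 * x.1.2 : ℕ) := by
        rw [Finset.sum_coe_sort (n : ℕ).divisorsAntidiagonal
          (fun x : ℕ × ℕ => (a x.1 x.2 : ℂ) * (x.2 : ℂ) ^ 3 * Q ^ (x.1 * x.2 : ℕ))]
        push_cast
        rw [Finset.sum_mul]
        refine Finset.sum_congr rfl fun x hx => ?_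
        rw [(Nat.mem_divisorsAntidiagonal.1 hx).1]
      rw [this]
      exact hasSum_fintype _)
  rw [← PNat.coe_injective.hasSum_iff]
  · exact h2
  · intro n hn
    have : n = 0 := by
      by_contra h
      exact hn ⟨⟨n, Nat.pos_of_ne_zero h⟩, rfl⟩
    subst this
    simp

theorem tsum_pnat_eq {f : ℕ → ℂ} (hf : Summable f) (h0 : f 0 = 0) :
    ∑' r : ℕ, f r = ∑' r : ℕ+, f r := by
  have := tsum_zero_pnat_eq_tsum_nat hf
  rw [h0, zero_add] at this
  exact this.symm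

omit [NeZero N] in
theorem cc_le (u0 b : ZMod N) (c r : ℕ) : |cc u0 b c r| ≤ 2 := by
  unfold cc
  split_ifs <;> norm_num

theorem norm_Q (τ : ℍ) : ‖Complex.exp (2 * π * I * τ / N)‖ < 1 := by
  have hNr : (0 : ℝ) < N := by exact_mod_cast Nat.pos_of_ne_zero (NeZero.ne N)
  have := UpperHalfPlane.norm_exp_two_pi_I_lt_one ⟨(τ : ℂ) / N, by
    rw [show ((τ : ℂ) / N) = (τ : ℂ) / ((N : ℝ) : ℂ) by push_cast; rfl, Complex.div_ofReal_im]
    exact div_pos τ.2 hNr⟩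
  convert this using 3
  push_cast
  ring

theorem Gw_wF (u0 b : ZMod N) (hu : u0 ≠ 0) (τ : ℍ) :
    Gw (wF u0 b) τ = kap N * ∑' c : ℕ+, ∑' r : ℕ+, (cc u0 b c r : ℂ) * (r : ℂ) ^ 3 *
      Complex.exp (2 * π * I * τ / N) ^ (c * r : ℕ) := by
  set Q : ℂ := Complex.exp (2 * π * I * τ / N) with hQdef
  have hQ : ‖Q‖ < 1 := norm_Q τ
  have hs := summable_Gw (wF u0 b) τ
  unfold Gw
  rw [← (finTwoArrowEquiv ℤ).symm.tsum_eq]
  have hs2 := (finTwoArrowEquiv ℤ).symm.summable_iff.2 hs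
  rw [Summable.tsum_prod (by simpa [Function.comp_def] using hs2)]
  have hs3 := Summable.prod (by simpa [Function.comp_def] using hs2 :
    Summable fun c : ℤ × ℤ => wF u0 b (((finTwoArrowEquiv ℤ).symm c) 0)
      (((finTwoArrowEquiv ℤ).symm c) 1) * eisSummand 4 ((finTwoArrowEquiv ℤ).symm c) τ)
  rw [tsum_int_eq_zero_add_tsum_pnat hs3]
  -- positive `c`
  have hpos : ∀ c : ℕ+, ∀ s : ZMod N, ∑' d : ℤ, ps N (-(s * d)) * (((c : ℕ) : ℂ) * τ + d) ^ (-4 : ℤ)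
      = kap N * ∑' r : ℕ+, (if (r : ZMod N) = s then (r : ℂ) ^ 3 else 0) * Q ^ (c * r : ℕ) := by
    intro c s
    have him : 0 < (((c : ℕ) : ℂ) * (τ : ℂ)).im := by
      have : (0 : ℝ) < (c : ℕ) := by exact_mod_cast c.2
      simpa using mul_pos this τ.2
    have h := inner ⟨((c : ℕ) : ℂ) * (τ : ℂ), him⟩ s
    have h' : ∑' d : ℤ, ps N (-(s * d)) * (((c : ℕ) : ℂ) * τ + d) ^ (-4 : ℤ)
      = kap N * ∑' r : ℕ, (if (r : ZMod N) = s then (r : ℂ) ^ 3 else 0) *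
          Complex.exp (2 * π * I * (((c : ℕ) : ℂ) * τ) / N) ^ r := h
    rw [h']
    congr 1
    have hE : Complex.exp (2 * π * I * (((c : ℕ) : ℂ) * τ) / N) = Q ^ (c : ℕ) := by
      rw [hQdef, ← Complex.exp_nat_mul]
      congr 1
      ring
    rw [hE]
    have hc1 : ‖Q ^ (c : ℕ)‖ < 1 := by
      rw [norm_pow]
      exact pow_lt_one₀ (norm_nonneg _) hQ c.ne_zero
    rw [tsum_pnat_eq]
    · refine tsum_congr fun r => ?_
      rw [← pow_mul]
    · refine Summable.of_norm_bounded (summable_cube hc1).norm fun r => ?_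
      split_ifs
      · exact le_refl _
      · simp
        positivity
    · simp
  have h0 : ∑' d : ℤ, wF u0 b (((finTwoArrowEquiv ℤ).symm ((0 : ℤ), d)) 0)
      (((finTwoArrowEquiv ℤ).symm ((0 : ℤ), d)) 1) * eisSummand 4 ((finTwoArrowEquiv ℤ).symm ((0 : ℤ), d)) τ = 0 := by
    have : ∀ d : ℤ, wF u0 b (((finTwoArrowEquiv ℤ).symm ((0 : ℤ), d)) 0)
      (((finTwoArrowEquiv ℤ).symm ((0 : ℤ), d)) 1) * eisSummand 4 ((finTwoArrowEquiv ℤ).symm ((0 : ℤ), d)) τ = 0 := by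
      intro d
      simp [wF, Ne.symm hu]
    exact (tsum_congr this).trans tsum_zero
  rw [h0, zero_add]
  have hp : ∀ c : ℕ+, ∑' d : ℤ, wF u0 b (((finTwoArrowEquiv ℤ).symm (((c : ℕ) : ℤ), d)) 0)
      (((finTwoArrowEquiv ℤ).symm (((c : ℕ) : ℤ), d)) 1) *
        eisSummand 4 ((finTwoArrowEquiv ℤ).symm (((c : ℕ) : ℤ), d)) τ
      = kap N * ∑' r : ℕ+, (if (c : ZMod N) = u0 ∧ (r : ZMod N) = b then (r : ℂ) ^ 3 else 0) *
          Q ^ (c * r : ℕ) := by
    intro c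
    by_cases hc : (c : ZMod N) = u0
    · have := hpos c b
      simp only [hc, true_and]
      rw [← this]
      refine tsum_congr fun d => ?_
      simp [wF, eisSummand, hc]
    · simp [wF, hc]
  have hm : ∀ c : ℕ+, ∑' d : ℤ, wF u0 b (((finTwoArrowEquiv ℤ).symm (-((c : ℕ) : ℤ), d)) 0)
      (((finTwoArrowEquiv ℤ).symm (-((c : ℕ) : ℤ), d)) 1) *
        eisSummand 4 ((finTwoArrowEquiv ℤ).symm (-((c : ℕ) : ℤ), d)) τ
      = kap N * ∑' r : ℕ+, (if (c : ZMod N) = -u0 ∧ (r : ZMod N) = -b then (r : ℂ) ^ 3 else 0) *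
          Q ^ (c * r : ℕ) := by
    intro c
    by_cases hc : (c : ZMod N) = -u0
    · have := hpos c (-b)
      simp only [hc, true_and]
      rw [← this, ← (Equiv.neg ℤ).tsum_eq (fun d : ℤ =>
        wF u0 b (((finTwoArrowEquiv ℤ).symm (-((c : ℕ) : ℤ), d)) 0)
        (((finTwoArrowEquiv ℤ).symm (-((c : ℕ) : ℤ), d)) 1) *
        eisSummand 4 ((finTwoArrowEquiv ℤ).symm (-((c : ℕ) : ℤ), d)) τ)]
      refine tsum_congr fun d => ?_
      have h1 : -(c : ZMod N) = u0 := by rw [hc, neg_neg]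
      have h2 : (-(((c : ℕ) : ℂ) * τ) + -(d : ℂ)) = -((((c : ℕ) : ℂ)) * τ + d) := by
        ring
      have h3 : ∀ x : ℂ, (-x) ^ (-4 : ℤ) = x ^ (-4 : ℤ) := fun x =>
        Even.neg_zpow (show Even (-4 : ℤ) by decide) x
      simp only [Equiv.neg_apply, wF, eisSummand, finTwoArrowEquiv_symm_apply,
        Matrix.cons_val_zero, Matrix.cons_val_one, Int.cast_neg, Int.cast_natCast, h1, if_true,
        mul_neg, neg_mul, neg_neg]
      rw [h2, h3]
    · have h1 : ¬ (-(c : ZMod N) = u0) := fun h => hc (by rw [← h, neg_neg])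
      simp [wF, hc, h1]
  rw [tsum_congr hp, tsum_congr hm, tsum_mul_left, tsum_mul_left, ← mul_add]
  congr 1
  have hsum : ∀ (P : ℕ → ℕ → Prop) [∀ c r, Decidable (P c r)], Summable fun c : ℕ+ × ℕ+ =>
      (if P c.1 c.2 then (c.2 : ℂ) ^ 3 else 0) * Q ^ (c.1 * c.2 : ℕ) := by
    intro P _
    refine Summable.of_norm_bounded (summable_prod_mul_pow 3 hQ).norm fun c => ?_
    split_ifs
    · exact le_refl _
    · simp only [zero_mul, norm_zero]
      positivity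
  have hA := hsum (fun c r => (c : ZMod N) = u0 ∧ (r : ZMod N) = b)
  have hB := hsum (fun c r => (c : ZMod N) = -u0 ∧ (r : ZMod N) = -b)
  rw [← hA.prod.tsum_add hB.prod]
  refine tsum_congr fun c => ?_
  rw [← (hA.prod_factor c).tsum_add (hB.prod_factor c)]
  refine tsum_congr fun r => ?_
  unfold cc
  push_cast
  split_ifs <;> ring

/-- **The integral expansion of `Fe`.** -/
theorem Fe_hasSum (u0 b : ZMod N) (hu : u0 ≠ 0) (τ : ℍ) :
    HasSum (fun n : ℕ => (cf u0 b n : ℂ) * Complex.exp (2 * π * I * τ / N) ^ n) (Fe u0 b τ) := by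
  have h := hasSum_div (cc u0 b) (cc_le u0 b) (norm_Q (N := N) τ)
  unfold Fe
  rw [Gw_wF u0 b hu τ, ← mul_assoc, inv_mul_cancel₀ kap_ne, one_mul]
  exact h

end Vale.Agent.P022.H280.L3
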