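import Vale.Agent.P022.H280.L3.Law

/-!
Helper280 (P022, P022-L3, row [GEN6], file 4): the stabilizer in `Γ_0(3)` of all `Fe u b` is
`G(3, M)`.
-/

open UpperHalfPlane hiding I
open ModularForm EisensteinSeries
open scoped Manifold MatrixGroups ModularForm Real

noncomputable section

namespace Vale.Agent.P022.H280.L3

open Complex (I)

section gen

variable {N : ℕ} [NeZero N]

/-- the weight concentrated at `(u, e)`. -/
def dl (u e u' v' : ZMod N) : ℂ := if u' = u ∧ v' = e then 1 else 0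

theorem Gw_sum {ι : Type*} (s : Finset ι) (c : ι → ℂ) (w : ι → ZMod N → ZMod N → ℂ) (τ : ℍ) :
    Gw (fun u v => ∑ i ∈ s, c i * w i u v) τ = ∑ i ∈ s, c i * Gw (w i) τ := by
  unfold Gw
  simp_rw [← tsum_mul_left]
  rw [← Summable.tsum_finsetSum fun i _ => (summable_Gw (w i) τ).mul_left (c i)]
  refine tsum_congr fun x => ?_
  rw [Finset.sum_mul]
  refine Finset.sum_congr rfl fun i _ => ?_
  ring

theorem sum_wF (u e u' v' : ZMod N) :
    ∑ b : ZMod N, ps N (b * e) * wF u b u' v' = N * dl u e u' v' := by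
  unfold wF dl
  by_cases h : u' = u
  · simp only [h, if_true, true_and]
    have : ∀ b : ZMod N, ps N (b * e) * ps N (-(b * v')) = ps N (b * (e - v')) := fun b => by
      rw [← AddChar.map_add_eq_mul]
      congr 1
      ring
    simp_rw [this]
    rw [AddChar.sum_mulShift _ (ZMod.isPrimitive_stdAddChar N)]
    by_cases h2 : v' = e
    · rw [if_pos h2, if_pos (by rw [h2, sub_self]), ZMod.card, mul_one]
    · rw [if_neg h2, if_neg (fun h3 => h2 (sub_eq_zero.1 h3).symm)]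
      simp
  · simp [h]

/-- the delta sums from the `Fe`. -/
theorem Gw_dl (u e : ZMod N) (τ : ℍ) :
    Gw (dl u e) τ = ∑ b : ZMod N, ((kap N / N) * ps N (b * e)) * Fe u b τ := by
  have hN : (N : ℂ) ≠ 0 := by exact_mod_cast NeZero.ne N
  have h1 := Gw_sum Finset.univ (fun b : ZMod N => ps N (b * e)) (fun b => wF u b) τ
  have h2 : (fun u' v' : ZMod N => ∑ b : ZMod N, ps N (b * e) * wF u b u' v')
      = fun u' v' => ∑ i ∈ ({0} : Finset ℕ), (N : ℂ) * dl u e u' v' := by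
    funext u' v'
    rw [sum_wF]
    simp
  rw [h2, Gw_sum ({0} : Finset ℕ) (fun _ => (N : ℂ)) (fun _ => dl u e) τ, Finset.sum_singleton] at h1
  have h3 : ∀ b : ZMod N, Gw (wF u b) τ = kap N * Fe u b τ := fun b => by
    unfold Fe
    rw [← mul_assoc, mul_inv_cancel₀ kap_ne, one_mul]
  simp_rw [h3] at h1
  calc Gw (dl u e) τ = (N : ℂ)⁻¹ * ((N : ℂ) * Gw (dl u e) τ) := by
        rw [← mul_assoc, inv_mul_cancel₀ hN, one_mul]
    _ = _ := by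
        rw [h1, Finset.mul_sum]
        refine Finset.sum_congr rfl fun b _ => ?_
        ring

omit [NeZero N] in
theorem mv_dl (γ : SL(2, ℤ)) (u e : ZMod N) :
    mv γ (dl u e) = dl (u * ((γ 0 0 : ℤ) : ZMod N) + e * ((γ 1 0 : ℤ) : ZMod N))
      (u * ((γ 0 1 : ℤ) : ZMod N) + e * ((γ 1 1 : ℤ) : ZMod N)) := by
  have hd := det_cast (N := N) γ
  ext u' v'
  unfold mv dl
  refine if_congr ?_ rfl rfl
  constructor
  · rintro ⟨rfl, rfl⟩
    constructor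
    · linear_combination (-u') * hd
    · linear_combination (-v') * hd
  · rintro ⟨rfl, rfl⟩
    constructor
    · linear_combination u * hd
    · linear_combination e * hd

omit [NeZero N] in
theorem Gw_dl_slash (γ : SL(2, ℤ)) (u e : ZMod N) :
    Gw (dl u e) ∣[(4 : ℤ)] γ = Gw (dl (u * ((γ 0 0 : ℤ) : ZMod N) + e * ((γ 1 0 : ℤ) : ZMod N))
      (u * ((γ 0 1 : ℤ) : ZMod N) + e * ((γ 1 1 : ℤ) : ZMod N))) := by
  rw [Gw_slash, mv_dl]

/-- invariance of all `Fe u b` gives invariance of the delta sums. -/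
theorem dl_inv (γ : SL(2, ℤ)) (u : ZMod N) (h : ∀ b, Fe u b ∣[(4 : ℤ)] γ = Fe u b) (e : ZMod N) :
    Gw (dl u e) ∣[(4 : ℤ)] γ = Gw (dl u e) := by
  ext τ
  rw [SL_slash_apply, Gw_dl, Gw_dl, Finset.sum_mul]
  refine Finset.sum_congr rfl fun b _ => ?_
  have := congrFun (h b) τ
  rw [SL_slash_apply] at this
  rw [mul_assoc, this]

/-- the expansion of the delta sums. -/
theorem dl_hasSum (u e : ZMod N) (hu : u ≠ 0) (τ : ℍ) :
    HasSum (fun n : ℕ => (∑ b : ZMod N, ((kap N / N) * ps N (b * e)) * (cf u b n : ℂ)) *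
      Function.Periodic.qParam N τ ^ n) (Gw (dl u e) τ) := by
  rw [Gw_dl]
  have h := hasSum_sum (s := Finset.univ) fun (b : ZMod N) _ =>
    (Fe_hasSum u b hu τ).mul_left ((kap N / N) * ps N (b * e))
  have hF : (fun n : ℕ => (∑ b : ZMod N, ((kap N / N) * ps N (b * e)) * (cf u b n : ℂ)) *
      Function.Periodic.qParam N τ ^ n) = fun n : ℕ => ∑ b : ZMod N,
        ((kap N / N) * ps N (b * e)) * ((cf u b n : ℂ) * Complex.exp (2 * π * I * τ / N) ^ n) := by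
    funext n
    rw [Finset.sum_mul]
    refine Finset.sum_congr rfl fun b _ => ?_
    have : Function.Periodic.qParam N τ = Complex.exp (2 * π * I * τ / N) := by
      unfold Function.Periodic.qParam
      norm_cast
    rw [this]
    ring
  rw [hF]
  exact h

end gen

section level

variable {M : ℕ}

theorem idx_three (hM : 2 ≤ M) : Idx M (3 : ZMod (3 * 2 ^ M)) := by
  refine ⟨fun h => ?_, 1, by ring⟩
  have h1 : ((3 : ℕ) : ZMod (3 * 2 ^ M)) = 0 := by exact_mod_cast h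
  rw [ZMod.natCast_eq_zero_iff] at h1
  have h2 := Nat.le_of_dvd (by norm_num) h1
  have h3 : 2 ^ 2 ≤ 2 ^ M := Nat.pow_le_pow_right (by norm_num) hM
  omega

theorem six_ne (hM : 2 ≤ M) : (3 : ZMod (3 * 2 ^ M)) ≠ -3 := by
  intro h
  have h1 : ((6 : ℕ) : ZMod (3 * 2 ^ M)) = 0 := by
    have : (3 : ZMod (3 * 2 ^ M)) + 3 = 0 := by
      nth_rw 1 [h]
      ring
    have h6 : ((6 : ℕ) : ZMod (3 * 2 ^ M)) = 3 + 3 := by norm_num
    rw [h6, this]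
  rw [ZMod.natCast_eq_zero_iff] at h1
  have h2 := Nat.le_of_dvd (by norm_num) h1
  have h3 : 2 ^ 2 ≤ 2 ^ M := Nat.pow_le_pow_right (by norm_num) hM
  omega

theorem div3 : Nat.divisorsAntidiagonal 3 = {(1, 3), (3, 1)} := by decide

/-- the coefficient of `t`. -/
theorem cf_three {u : ZMod (3 * 2 ^ M)} (hu : Idx M u) (b : ZMod (3 * 2 ^ M)) :
    cf u b 3 = (if 3 = u ∧ 1 = b then 1 else 0) + (if 3 = -u ∧ 1 = -b then 1 else 0) := by
  have h1 : ((1 : ℕ) : ZMod (3 * 2 ^ M)) ≠ u := fun h => by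
    have := three_dvd hu.2 h
    omega
  have h2 : ((1 : ℕ) : ZMod (3 * 2 ^ M)) ≠ -u := fun h => by
    obtain ⟨-, a, ha⟩ := hu
    have := three_dvd (u := -u) ⟨-a, by rw [ha]; ring⟩ h
    omega
  unfold cf
  rw [div3, Finset.sum_insert (by decide), Finset.sum_singleton]
  unfold cc
  rw [if_neg (fun h => h1 h.1), if_neg (fun h => h2 h.1)]
  simp

theorem aux_if (P Q R S : Prop) [Decidable P] [Decidable Q] [Decidable R] [Decidable S] (x : ℂ) :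
    x * (((if P ∧ Q then 1 else 0) + (if R ∧ S then 1 else 0) : ℤ) : ℂ)
      = (if Q then (if P then x else 0) else 0) + (if S then (if R then x else 0) else 0) := by
  push_cast
  rw [mul_add]
  congr 1
  · by_cases hP : P <;> by_cases hQ : Q <;> simp [hP, hQ]
  · by_cases hR : R <;> by_cases hS : S <;> simp [hR, hS]

theorem sum_cf {u : ZMod (3 * 2 ^ M)} (hu : Idx M u) (e : ZMod (3 * 2 ^ M)) :
    ∑ b : ZMod (3 * 2 ^ M), ((kap (3 * 2 ^ M) / ((3 * 2 ^ M : ℕ) : ℂ)) *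
      ps (3 * 2 ^ M) (b * e)) * (cf u b 3 : ℂ)
      = (kap (3 * 2 ^ M) / ((3 * 2 ^ M : ℕ) : ℂ)) *
        ((if 3 = u then ps (3 * 2 ^ M) e else 0) + (if 3 = -u then ps (3 * 2 ^ M) (-e) else 0)) := by
  have h : ∀ b : ZMod (3 * 2 ^ M), ((kap (3 * 2 ^ M) / ((3 * 2 ^ M : ℕ) : ℂ)) *
      ps (3 * 2 ^ M) (b * e)) * (cf u b 3 : ℂ) = (kap (3 * 2 ^ M) / ((3 * 2 ^ M : ℕ) : ℂ)) *
      ((if 1 = b then (if 3 = u then ps (3 * 2 ^ M) (b * e) else 0) else 0) +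
        (if -1 = b then (if 3 = -u then ps (3 * 2 ^ M) (b * e) else 0) else 0)) := by
    intro b
    rw [cf_three hu b, mul_assoc]
    congr 1
    have hb : (1 = -b) ↔ (-1 = b) := by
      constructor
      · intro h; rw [h, neg_neg]
      · intro h; rw [← h, neg_neg]
    rw [aux_if]
    congr 1
    exact if_congr hb rfl rfl
  rw [Finset.sum_congr rfl fun b _ => h b, ← Finset.mul_sum, Finset.sum_add_distrib,
    Finset.sum_ite_eq, Finset.sum_ite_eq]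
  simp

/-- comparison of the coefficients of `t`. -/
theorem dl_eq {u e e' : ZMod (3 * 2 ^ M)} (hM : 2 ≤ M) (hu : Idx M u)
    (h : Gw (dl 3 e) = Gw (dl u e')) : (3 = u ∧ e = e') ∨ (3 = -u ∧ e = -e') := by
  have hpos : (0 : ℝ) < ((3 * 2 ^ M : ℕ) : ℝ) := by positivity
  have h1 := fun τ : ℍ => dl_hasSum (3 : ZMod (3 * 2 ^ M)) e (idx_three hM).1 τ
  have h2 := fun τ : ℍ => dl_hasSum u e' hu.1 τ
  rw [h] at h1
  have h3 := congrFun (coeff_unique hpos h1 h2) 3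
  rw [sum_cf (idx_three hM), sum_cf hu] at h3
  have hk : (kap (3 * 2 ^ M) / ((3 * 2 ^ M : ℕ) : ℂ)) ≠ 0 := by
    refine div_ne_zero kap_ne ?_
    have : (3 * 2 ^ M : ℕ) ≠ 0 := by positivity
    exact_mod_cast this
  have h4 := mul_left_cancel₀ hk h3
  rw [if_pos rfl, if_neg (six_ne hM), add_zero] at h4
  have hps : ∀ x : ZMod (3 * 2 ^ M), ps (3 * 2 ^ M) x ≠ 0 := fun x hx => by
    have := norm_ps x
    rw [hx, norm_zero] at this
    norm_num at this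
  by_cases c1 : (3 : ZMod (3 * 2 ^ M)) = u
  · by_cases c2 : (3 : ZMod (3 * 2 ^ M)) = -u
    · exact absurd (c2.trans (by rw [← c1])) (six_ne hM)
    · rw [if_pos c1, if_neg c2, add_zero] at h4
      exact Or.inl ⟨c1, ZMod.injective_stdAddChar h4⟩
  · rw [if_neg c1, zero_add] at h4
    by_cases c2 : (3 : ZMod (3 * 2 ^ M)) = -u
    · rw [if_pos c2] at h4
      exact Or.inr ⟨c2, ZMod.injective_stdAddChar h4⟩
    · rw [if_neg c2] at h4
      exact absurd h4 (hps e)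

theorem three_ne (hM : 2 ≤ M) : (3 : ZMod (3 * 2 ^ M)) ≠ 0 := (idx_three hM).1

/-- the index `u = 0` does not occur. -/
theorem dl_zero {e e' : ZMod (3 * 2 ^ M)} (hM : 2 ≤ M) : Gw (dl 3 e) ≠ Gw (dl 0 e') := by
  intro h
  have hT0 : ((ModularGroup.T 0 0 : ℤ)) = 1 := by simp [ModularGroup.T]
  have hT1 : ((ModularGroup.T 0 1 : ℤ)) = 1 := by simp [ModularGroup.T]
  have hT2 : ((ModularGroup.T 1 0 : ℤ)) = 0 := by simp [ModularGroup.T]
  have hT3 : ((ModularGroup.T 1 1 : ℤ)) = 1 := by simp [ModularGroup.T]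
  have h1 := congrArg (fun F => F ∣[(4 : ℤ)] ModularGroup.T) h
  simp only [Gw_dl_slash, hT0, hT1, hT2, hT3, Int.cast_one, Int.cast_zero, mul_one, mul_zero,
    add_zero, zero_add] at h1
  have h2 : Gw (dl 3 e) = Gw (dl 3 (3 + e)) := h.trans h1.symm
  rcases dl_eq hM (idx_three hM) h2 with ⟨-, h3⟩ | ⟨h3, -⟩
  · exact three_ne hM (by simpa using h3)
  · exact six_ne hM h3

/-- **The stabilizer.** -/
theorem stab (hM : 2 ≤ M) (γ : SL(2, ℤ)) (h3 : (3 : ℤ) ∣ γ 1 0)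
    (h : ∀ u : ZMod (3 * 2 ^ M), Idx M u → ∀ b, Fe u b ∣[(4 : ℤ)] γ = Fe u b) :
    Vale.Agent.P022.L3.InG 3 M γ := by
  have key : ∀ e : ZMod (3 * 2 ^ M),
      (3 * ((γ 0 0 : ℤ) : ZMod (3 * 2 ^ M)) + e * ((γ 1 0 : ℤ) : ZMod (3 * 2 ^ M)) = 3 ∧
        3 * ((γ 0 1 : ℤ) : ZMod (3 * 2 ^ M)) + e * ((γ 1 1 : ℤ) : ZMod (3 * 2 ^ M)) = e) ∨
      (3 * ((γ 0 0 : ℤ) : ZMod (3 * 2 ^ M)) + e * ((γ 1 0 : ℤ) : ZMod (3 * 2 ^ M)) = -3 ∧
        3 * ((γ 0 1 : ℤ) : ZMod (3 * 2 ^ M)) + e * ((γ 1 1 : ℤ) : ZMod (3 * 2 ^ M)) = -e) := by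
    intro e
    have h1 := dl_inv γ 3 (h 3 (idx_three hM)) e
    rw [Gw_dl_slash] at h1
    obtain ⟨c, hc⟩ := h3
    have hmul : ∃ a : ZMod (3 * 2 ^ M), 3 * ((γ 0 0 : ℤ) : ZMod (3 * 2 ^ M)) +
        e * ((γ 1 0 : ℤ) : ZMod (3 * 2 ^ M)) = 3 * a := by
      refine ⟨((γ 0 0 : ℤ) : ZMod (3 * 2 ^ M)) + e * (c : ZMod (3 * 2 ^ M)), ?_⟩
      rw [hc]
      push_cast
      ring
    by_cases h0 : 3 * ((γ 0 0 : ℤ) : ZMod (3 * 2 ^ M)) + e * ((γ 1 0 : ℤ) : ZMod (3 * 2 ^ M)) = 0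
    · rw [h0] at h1
      exact absurd h1.symm (dl_zero hM)
    · rcases dl_eq hM ⟨h0, hmul⟩ h1.symm with ⟨h4, h5⟩ | ⟨h4, h5⟩
      · exact Or.inl ⟨h4.symm, h5.symm⟩
      · refine Or.inr ⟨?_, ?_⟩
        · exact neg_eq_iff_eq_neg.1 h4.symm
        · exact neg_eq_iff_eq_neg.1 h5.symm
  obtain ⟨c, hc⟩ := h3
  have h2M : IsCoprime (3 : ℤ) (2 ^ M : ℤ) := by
    refine IsCoprime.pow_right ?_
    exact ⟨1, -1, by norm_num⟩
  have dvd_of : ∀ z : ℤ, (z : ZMod (3 * 2 ^ M)) = 0 → (3 * 2 ^ M : ℤ) ∣ z := fun z hz => by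
    have := (ZMod.intCast_zmod_eq_zero_iff_dvd z (3 * 2 ^ M)).1 hz
    exact_mod_cast this
  have part : ∀ s : ℤ,
      (3 * ((γ 0 0 : ℤ) : ZMod (3 * 2 ^ M)) + 1 * ((γ 1 0 : ℤ) : ZMod (3 * 2 ^ M)) = 3 * (s : ZMod _) ∧
        3 * ((γ 0 1 : ℤ) : ZMod (3 * 2 ^ M)) + 1 * ((γ 1 1 : ℤ) : ZMod (3 * 2 ^ M)) = s) →
      (3 * ((γ 0 0 : ℤ) : ZMod (3 * 2 ^ M)) + 4 * ((γ 1 0 : ℤ) : ZMod (3 * 2 ^ M)) = 3 * (s : ZMod _) ∧
        3 * ((γ 0 1 : ℤ) : ZMod (3 * 2 ^ M)) + 4 * ((γ 1 1 : ℤ) : ZMod (3 * 2 ^ M)) = 4 * s) →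
      (3 * 2 ^ M : ℤ) ∣ γ 1 0 ∧ (2 ^ M : ℤ) ∣ γ 0 1 ∧ (3 * 2 ^ M : ℤ) ∣ γ 1 1 - s := by
    rintro s ⟨h1, h2⟩ ⟨h3, h4⟩
    have d1 : (3 * 2 ^ M : ℤ) ∣ 3 * γ 1 0 := dvd_of _ (by
      push_cast
      linear_combination h3 - h1)
    have d2 : (3 * 2 ^ M : ℤ) ∣ 3 * (γ 1 1 - s) := dvd_of _ (by
      push_cast
      linear_combination h4 - h2)
    have d3 : (3 * 2 ^ M : ℤ) ∣ 3 * γ 0 1 + (γ 1 1 - s) := dvd_of _ (by
      push_cast
      linear_combination h2)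
    have e1 : (2 ^ M : ℤ) ∣ γ 1 0 := (mul_dvd_mul_iff_left (by norm_num)).1 d1
    have e2 : (2 ^ M : ℤ) ∣ γ 1 1 - s := (mul_dvd_mul_iff_left (by norm_num)).1 d2
    have e3 : (3 : ℤ) ∣ γ 1 1 - s := by
      have h5 : (3 : ℤ) ∣ 3 * γ 0 1 + (γ 1 1 - s) := (Dvd.intro _ rfl).trans d3
      exact (dvd_add_right (Dvd.intro _ rfl)).1 h5
    have e4 : (3 * 2 ^ M : ℤ) ∣ γ 1 1 - s := h2M.mul_dvd e3 e2
    refine ⟨h2M.mul_dvd ⟨c, hc⟩ e1, ?_, e4⟩
    have e5 : (3 * 2 ^ M : ℤ) ∣ 3 * γ 0 1 := (dvd_add_left e4).1 d3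
    exact (mul_dvd_mul_iff_left (by norm_num)).1 e5
  have bad : ¬ ((3 * 2 ^ M : ℤ) ∣ 3 * γ 1 1 + 5) ∧ ¬ ((3 * 2 ^ M : ℤ) ∣ 3 * γ 1 1 - 5) := by
    constructor
    · intro h
      have : (3 : ℤ) ∣ 3 * γ 1 1 + 5 := (Dvd.intro _ rfl).trans h
      omega
    · intro h
      have : (3 : ℤ) ∣ 3 * γ 1 1 - 5 := (Dvd.intro _ rfl).trans h
      omega
  rcases key 1 with ⟨h1, h2⟩ | ⟨h1, h2⟩ <;> rcases key 4 with ⟨h5, h6⟩ | ⟨h5, h6⟩
  · obtain ⟨r1, r2, r3⟩ := part 1 ⟨by rw [h1]; push_cast; ring, by rw [h2]; push_cast; ring⟩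
      ⟨by rw [h5]; push_cast; ring, by rw [h6]; push_cast; ring⟩
    exact ⟨by exact_mod_cast r1, by exact_mod_cast r2, Or.inl (by exact_mod_cast r3)⟩
  · exact absurd (dvd_of (3 * γ 1 1 + 5) (by push_cast; linear_combination h6 - h2)) bad.1
  · exact absurd (dvd_of (3 * γ 1 1 - 5) (by push_cast; linear_combination h6 - h2)) bad.2
  · obtain ⟨r1, r2, r3⟩ := part (-1) ⟨by rw [h1]; push_cast; ring, by rw [h2]; push_cast; ring⟩
      ⟨by rw [h5]; push_cast; ring, by rw [h6]; push_cast; ring⟩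
    rw [sub_neg_eq_add] at r3
    exact ⟨by exact_mod_cast r1, by exact_mod_cast r2, Or.inr (by exact_mod_cast r3)⟩

end level

end Vale.Agent.P022.H280.L3

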